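import Vale.Agent.P014.H581.NumAbs

/-!
# P014 (CN): the invariants of `ℚ(√-n)`, `n ≡ 3 mod 4`, `n > 3`
-/

open NumberField NumberField.InfinitePlace NumberField.Units Module
open Vale.Agent.P017.H185 Vale.Agent.P014.H581

namespace Vale.Agent.P014.H608

variable {K : Type*} [Field K] [NumberField K] {n : ℕ} (q : QF K n)

include q in
theorem finrank_eq : finrank ℚ K = 2 := by
  have hli : LinearIndependent ℚ ![(1 : K), q.θ] := by
    rw [LinearIndependent.pair_iff]
    intro u v huv
    have : (u : K) + v * q.θ = 0 := by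
      rw [← huv]
      simp [Algebra.smul_def]
    exact q.uniq this
  have hsp : ⊤ ≤ Submodule.span ℚ (Set.range ![(1 : K), q.θ]) := by
    intro z _
    obtain ⟨u, v, huv⟩ := q.hspan z
    rw [huv, Matrix.range_cons, Matrix.range_cons, Matrix.range_empty]
    rw [Set.union_empty, Set.singleton_union, Submodule.mem_span_pair]
    exact ⟨u, v, by simp [Algebra.smul_def]⟩
  have := Module.finrank_eq_card_basis (Module.Basis.mk hli hsp)
  simpa using this

include q in
theorem totallyComplex : IsTotallyComplex K := by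
  refine ⟨fun w => ?_⟩
  rw [← not_isReal_iff_isComplex, isReal_iff]
  intro h
  have h1 : (starRingEnd ℂ) (w.embedding q.θ) = w.embedding q.θ :=
    RingHom.congr_fun h q.θ
  have h2 : (w.embedding q.θ) ^ 2 = -(n : ℂ) := by
    rw [← map_pow, q.hθ, map_neg, map_natCast]
  rw [Complex.conj_eq_iff_real] at h1
  obtain ⟨r, hr⟩ := h1
  rw [hr] at h2
  have h3 : r ^ 2 = -(n : ℝ) := by exact_mod_cast h2
  have h4 : (0 : ℝ) < n := by exact_mod_cast q.d_pos
  nlinarith [sq_nonneg r]

include q in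
theorem nrReal : nrRealPlaces K = 0 := by
  have := totallyComplex q
  exact IsTotallyComplex.nrRealPlaces_eq_zero K

include q in
theorem nrComplex : nrComplexPlaces K = 1 := by
  have h := card_add_two_mul_card_eq_rank K
  rw [nrReal q, finrank_eq q] at h
  omega

include q in
theorem rank_eq : rank K = 0 := by
  unfold rank
  rw [card_eq_nrRealPlaces_add_nrComplexPlaces, nrReal q, nrComplex q]

open scoped Classical in
theorem regulator_eq_aux (h1 : Fintype.card (InfinitePlace K) = 1) : regulator K = 1 := by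
  rw [regulator_eq_det']
  refine (congrArg abs ?_).trans abs_one
  apply Matrix.det_eq_one_of_card_eq_zero
  rw [Fintype.card_eq_zero_iff]
  exact ⟨fun w => w.2 ((Fintype.card_le_one_iff_subsingleton.1 h1.le).elim _ _)⟩

include q in
theorem regulator_eq : regulator K = 1 := by
  apply regulator_eq_aux
  rw [card_eq_nrRealPlaces_add_nrComplexPlaces, nrReal q, nrComplex q]

include q in
theorem unit_eq (hn : 4 < n) (u : (𝓞 K)ˣ) : u = 1 ∨ u = -1 := by
  have h1 : q.N (u : 𝓞 K) = 1 := by
    have h2 : IsUnit ((u : 𝓞 K) * q.s (u : 𝓞 K)) := u.isUnit.mul (u.isUnit.map q.s)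
    rw [q.mul_s] at h2
    obtain ⟨v, hv⟩ := h2
    have h3 : ((q.N (u : 𝓞 K) : ℕ) : 𝓞 K) ∣ ((1 : ℕ) : 𝓞 K) := by
      rw [← hv, Nat.cast_one]
      exact (Units.isUnit v).dvd
    exact Nat.dvd_one.1 (QF.natCast_dvd (K := K) h3)
  obtain ⟨a, b, hab, -⟩ := q.int_coords (QF.isInt (u : 𝓞 K))
  have h2 := q.N_eq (u : 𝓞 K)
  rw [h1] at h2
  have h3 : algebraMap (𝓞 K) K (u : 𝓞 K) = ((a / 2 : ℚ) : K) + ((b / 2 : ℚ) : K) * q.θ := by
    push_cast; linear_combination (1 / 2 : K) * hab
  rw [h3, q.nm_coords] at h2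
  have h4 : (a : ℚ) ^ 2 + n * b ^ 2 = 4 := by
    push_cast at h2
    linear_combination (-4) * h2
  have h5 : (a : ℤ) ^ 2 + n * b ^ 2 = 4 := by exact_mod_cast h4
  have hn' : (4 : ℤ) < n := by exact_mod_cast hn
  have hb : b = 0 := by
    by_contra hb
    have : 1 ≤ b ^ 2 := by
      have := sq_pos_of_ne_zero hb
      omega
    nlinarith [sq_nonneg a]
  subst hb
  have h6 : (a - 2) * (a + 2) = 0 := by linear_combination h5
  rcases mul_eq_zero.1 h6 with h7 | h7
  · left
    have ha : a = 2 := by omega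
    apply Units.ext
    apply QF.ext'
    rw [h3, ha]
    simp
  · right
    have ha : a = -2 := by omega
    apply Units.ext
    apply QF.ext'
    rw [h3, ha]
    simp

include q in
theorem torsionOrder_eq (hn : 4 < n) : torsionOrder K = 2 := by
  unfold torsionOrder
  have h1 : (torsion K : Set (𝓞 K)ˣ) = {1, -1} := by
    ext u
    constructor
    · intro _
      rcases unit_eq q hn u with h | h
      · left; exact h
      · right; exact h
    · rintro (h | h)
      · rw [h]; exact one_mem _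
      · rw [h]
        have : IsOfFinOrder (-1 : (𝓞 K)ˣ) := isOfFinOrder_iff_pow_eq_one.2 ⟨2, two_pos, by norm_num⟩
        exact this
  have h2 : Nat.card (torsion K) = Set.ncard (torsion K : Set (𝓞 K)ˣ) := rfl
  rw [h2, h1, Set.ncard_pair]
  intro h
  have h3 := congrArg (fun u : (𝓞 K)ˣ => (u : 𝓞 K)) h
  simp only [Units.val_one, Units.val_neg] at h3
  have h4 : (2 : 𝓞 K) = 0 := by linear_combination h3
  exact two_ne_zero h4

/-- `ω = (1 + θ) / 2` -/
theorem exists_omega (hn : n % 4 = 3) : ∃ w : 𝓞 K, 2 * algebraMap (𝓞 K) K w = 1 + q.θ := by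
  have h : (4 : ℤ) ∣ (1 : ℤ) ^ 2 + n * (1 : ℤ) ^ 2 := by omega
  obtain ⟨z, hz, h2⟩ := q.of_coords h
  obtain ⟨y, hy⟩ := QF.exists_of_isInt hz
  exact ⟨y, by rw [hy, h2]; simp⟩

theorem omega_sq {m : ℕ} (hm : n + 1 = 4 * m) {w : 𝓞 K} (hw : 2 * algebraMap (𝓞 K) K w = 1 + q.θ) :
    w * w = w - (m : 𝓞 K) := by
  apply QF.ext'
  rw [map_mul, map_sub, map_natCast]
  have h1 : (n : K) + 1 = 4 * m := by exact_mod_cast hm
  have h2 := q.hθ
  have h3 : algebraMap (𝓞 K) K w = (1 + q.θ) / 2 := by linear_combination (1 / 2 : K) * hw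
  rw [h3]
  linear_combination (1 / 4 : K) * h2 - (1 / 4 : K) * h1

include q in
theorem discr_eq (hn : n % 4 = 3) : discr K = -(n : ℤ) := by
  obtain ⟨w, hw⟩ := exists_omega q hn
  obtain ⟨m, hm⟩ : ∃ m : ℕ, n + 1 = 4 * m := ⟨(n + 1) / 4, by omega⟩
  have hw2 := omega_sq q hm hw
  have hli : LinearIndependent ℤ ![(1 : 𝓞 K), w] := by
    rw [LinearIndependent.pair_iff]
    intro u v huv
    have h1 := congrArg (algebraMap (𝓞 K) K) huv
    rw [map_add, map_zero, zsmul_eq_mul, zsmul_eq_mul, map_mul, map_mul, map_intCast, map_intCast,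
      map_one] at h1
    have h2 : (((u : ℚ) + v / 2 : ℚ) : K) + ((v / 2 : ℚ) : K) * q.θ = 0 := by
      push_cast
      linear_combination h1 - (v / 2 : K) * hw
    obtain ⟨h3, h4⟩ := q.uniq h2
    have h5 : (v : ℚ) = 0 := by linarith
    have h6 : (u : ℚ) = 0 := by rw [h5] at h3; simpa using h3
    exact ⟨by exact_mod_cast h6, by exact_mod_cast h5⟩
  have hsp : ⊤ ≤ Submodule.span ℤ (Set.range ![(1 : 𝓞 K), w]) := by
    intro z _
    obtain ⟨a, b, hab, h4⟩ := q.int_coords (QF.isInt z)
    have hpar : ∃ c : ℤ, a - b = 2 * c := by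
      obtain ⟨k, hk⟩ := h4
      have hnn : ∃ j : ℤ, (n : ℤ) = 4 * j + 3 := ⟨n / 4, by omega⟩
      obtain ⟨j, hj⟩ := hnn
      rw [hj] at hk
      have h5 : (a - b) * (a + b) = 4 * (k - j * b ^ 2 - b ^ 2) := by linear_combination hk
      rcases Int.even_or_odd (a - b) with h | h
      · obtain ⟨c, hc⟩ := h
        exact ⟨c, by rw [hc]; ring⟩
      · exfalso
        have h6 : Odd (a + b) := by
          have : a + b = (a - b) + 2 * b := by ring
          rw [this]
          exact h.add_even (even_two_mul b)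
        have h7 := h.mul h6
        rw [h5] at h7
        rcases h7 with ⟨c, hc⟩
        omega
    obtain ⟨c, hc⟩ := hpar
    rw [Matrix.range_cons, Matrix.range_cons, Matrix.range_empty, Set.union_empty,
      Set.singleton_union, Submodule.mem_span_pair]
    refine ⟨c, b, ?_⟩
    apply QF.ext'
    rw [map_add, zsmul_eq_mul, zsmul_eq_mul, map_mul, map_mul, map_intCast, map_intCast, map_one]
    have h6 : ((a - b : ℤ) : K) = ((2 * c : ℤ) : K) := by rw [hc]
    push_cast at h6
    linear_combination (1 / 2 : K) * (b * hw - hab - h6)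
  let B : Module.Basis (Fin 2) ℤ (𝓞 K) := Module.Basis.mk hli hsp
  have hB0 : B 0 = 1 := by simp [B]
  have hB1 : B 1 = w := by simp [B]
  have hr : ∀ (u v : ℤ) (i : Fin 2), B.repr ((u : 𝓞 K) + v * w) i = if i = 0 then u else v := by
    intro u v i
    have : (u : 𝓞 K) + v * w = u • B 0 + v • B 1 := by
      rw [hB0, hB1, zsmul_eq_mul, zsmul_eq_mul, mul_one]
    rw [this, map_add, map_zsmul, map_zsmul, B.repr_self, B.repr_self]
    fin_cases i <;> simp
  have htr : ∀ u v : ℤ, Algebra.trace ℤ (𝓞 K) ((u : 𝓞 K) + v * w) = 2 * u + v := by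
    intro u v
    rw [Algebra.trace_eq_matrix_trace B, Matrix.trace_fin_two, Algebra.leftMulMatrix_eq_repr_mul,
      Algebra.leftMulMatrix_eq_repr_mul, hB0, hB1, mul_one, hr]
    have : ((u : 𝓞 K) + v * w) * w = ((-(v * m) : ℤ) : 𝓞 K) + ((u + v : ℤ) : 𝓞 K) * w := by
      push_cast
      linear_combination (v : 𝓞 K) * hw2
    rw [this, hr]
    simp
    ring
  have h00 : Algebra.trace ℤ (𝓞 K) (1 * 1) = 2 := by
    have := htr 1 0
    simpa using this
  have h01 : Algebra.trace ℤ (𝓞 K) (1 * w) = 1 := by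
    have := htr 0 1
    simpa using this
  have h11 : Algebra.trace ℤ (𝓞 K) (w * w) = 1 - 2 * m := by
    have := htr (-m) 1
    rw [hw2]
    have e : w - (m : 𝓞 K) = ((-(m : ℤ) : ℤ) : 𝓞 K) + ((1 : ℤ) : 𝓞 K) * w := by
      push_cast; ring
    rw [e, this]
    ring
  rw [← discr_eq_discr K B, Algebra.discr_def, Matrix.det_fin_two]
  simp only [Algebra.traceMatrix_apply, Algebra.traceForm_apply, hB0, hB1]
  rw [mul_comm w 1, h00, h01, h11]
  have : (n : ℤ) + 1 = 4 * m := by exact_mod_cast hm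
  linear_combination this

end Vale.Agent.P014.H608
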