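import Vale.Agent.P014.H608.L4
import Vale.Agent.P014.H608.Fld

/-!
# P014 (CN): Dirichlet's class number formula for `ℚ(√-n)`, `n ≡ 3 mod 4` squarefree, `n > 3`
-/

open Real MeasureTheory Set Filter Topology Asymptotics NumberField
open Complex (I)
open scoped NumberTheorySymbols
open Vale.Agent.P017.H185 Vale.Agent.P014.H581

namespace Vale.Agent.P014.H608

variable {K : Type*} [Field K] [NumberField K] {n : ℕ} (q : QF K n)

include q in
theorem residue_eq_L (hn : n % 4 = 3) :
    dedekindZeta_residue K = - (π * AH n / (n * √(n : ℝ))) := by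
  have : NeZero n := ⟨by omega⟩
  have h1 := tendsto_sub_one_mul_dedekindZeta_nhdsGT K
  have hA : Tendsto (fun s : ℝ => (s : ℂ)) (𝓝[>] 1) (𝓝[≠] 1) := by
    refine tendsto_nhdsWithin_iff.2 ⟨?_, ?_⟩
    · exact (Complex.continuous_ofReal.tendsto 1).mono_left nhdsWithin_le_nhds
    · filter_upwards [self_mem_nhdsWithin] with s hs
      have hs' : (1 : ℝ) < s := hs
      simp only [mem_compl_iff, mem_singleton_iff]
      intro h
      have : s = 1 := by exact_mod_cast h
      linarith
  have hB : Tendsto (fun s : ℝ => ((s : ℂ) - 1) * riemannZeta s) (𝓝[>] 1) (𝓝 1) :=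
    riemannZeta_residue_one.comp hA
  have hC : Tendsto (fun s : ℝ => mellin (Gj n) s) (𝓝[>] 1) (𝓝 (mellin (Gj n) 1)) :=
    (mellin_cont (by omega)).tendsto.comp (hA.mono_right nhdsWithin_le_nhds)
  have hG : Tendsto (fun s : ℝ => Complex.Gamma s) (𝓝[>] 1) (𝓝 (Complex.Gamma 1)) :=
    (Complex.differentiableAt_Gamma 1 (fun m h => by
      have := congrArg Complex.re h
      simp at this
      have h2 : (0 : ℝ) ≤ m := Nat.cast_nonneg m
      linarith)).continuousAt.tendsto.comp (hA.mono_right nhdsWithin_le_nhds)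
  have h2 : Tendsto (fun s : ℝ => ((s : ℂ) - 1) * dedekindZeta K s) (𝓝[>] 1)
      (𝓝 (1 * (mellin (Gj n) 1 / Complex.Gamma 1))) := by
    refine (hB.mul (hC.div hG (by rw [Complex.Gamma_one]; exact one_ne_zero))).congr' ?_
    filter_upwards [self_mem_nhdsWithin] with s hs
    have hs' : (1 : ℝ) < s := hs
    rw [zeta_eq q hn hs', Pi.div_apply, LSeries_mellin hn q.hd hs']
    have : Complex.Gamma s ≠ 0 := Complex.Gamma_ne_zero_of_re_pos (by
      rw [Complex.ofReal_re]; linarith)
    field_simp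
  have h3 := tendsto_nhds_unique h1 h2
  rw [Complex.Gamma_one, div_one, one_mul, mellin_val hn q.hd] at h3
  exact_mod_cast h3

include q in
/-- **Dirichlet's class number formula**: `∑_{0 < b < n} b (b / n) = - n h` -/
theorem CN (hn : n % 4 = 3) (hn3 : 3 < n) :
    AH n = -((n : ℤ) * (Fintype.card (ClassGroup (𝓞 K)) : ℤ)) := by
  have h1 := residue_eq_L q hn
  rw [dedekindZeta_residue_def, nrReal q, nrComplex q, regulator_eq q, torsionOrder_eq q (by omega),
    discr_eq q hn] at h1
  have hn0 : (0 : ℝ) < n := by exact_mod_cast (by omega : 0 < n)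
  have hs : 0 < √(n : ℝ) := Real.sqrt_pos.2 hn0
  have habs : |((-(n : ℤ) : ℤ) : ℝ)| = n := by
    push_cast
    rw [abs_neg, abs_of_pos hn0]
  rw [habs] at h1
  unfold NumberField.classNumber at h1
  have hpi := Real.pi_pos
  field_simp at h1
  have h2 : ((AH n : ℤ) : ℝ) = -((n : ℝ) * (Fintype.card (ClassGroup (𝓞 K)) : ℝ)) := by
    push_cast at h1
    linarith
  exact_mod_cast h2

end Vale.Agent.P014.H608
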