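import Vale.Agent.P014.H608.Gs3

/-!
# P014 (CN): the finite Fourier transform of the Jacobi symbol `(a/q)`, `q` odd squarefree
-/

open Real MeasureTheory Set Filter Topology
open Complex (I)
open scoped NumberTheorySymbols
open P004

namespace Vale.Agent.P014.H608

/-- the normalised Gauss sum: `1` or `i` -/
noncomputable def eps (q : ℕ) : ℂ := if q % 4 = 1 then 1 else I

/-- The finite Fourier transform of `(a/q)`. -/
def FTe (q : ℕ) [NeZero q] : Prop := ∀ k : ℤ,
  ∑ a : ZMod q, ((J((a.val : ℤ) | q) : ℤ) : ℂ) * ZMod.stdAddChar (a * (k : ZMod q)) =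
    ((J(k | q) : ℤ) : ℂ) * ((√(q : ℝ) : ℝ) * eps q)

lemma gs_eps {p : ℕ} [NeZero p] (hp : p % 2 = 1) : gsd p = (√(p : ℝ) : ℝ) * eps p := by
  have h : p % 4 = 1 ∨ p % 4 = 3 := by omega
  rcases h with h | h
  · rw [gs_eq pfTw h, eps, if_pos h, mul_one]
  · rw [gs_eq3 h, eps, if_neg (by omega)]

lemma FTe_one : FTe 1 := fun k => by
  have h : ∀ x : ZMod 1, (ZMod.stdAddChar x : ℂ) = 1 := fun x => by
    rw [Subsingleton.elim x 0, AddChar.map_zero_eq_one]
  simp [jacobiSym.one_right, h, eps]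

lemma FTe_prime (p : ℕ) [Fact p.Prime] (hp : p % 2 = 1) : FTe p := by
  intro k
  have hp2 : ringChar (ZMod p) ≠ 2 := by
    rw [ZMod.ringChar_zmod_n]
    rintro rfl
    omega
  set χ := quadraticChar (ZMod p) with hχ
  have hJ : ∀ a : ℤ, J(a | p) = χ (a : ZMod p) := fun a => by
    rw [← jacobiSym.legendreSym.to_jacobiSym]
    rfl
  have hJv : ∀ a : ZMod p, J((a.val : ℤ) | p) = χ a := fun a => by
    rw [hJ]
    congr 1
    simp
  simp only [hJv]
  rw [hJ]
  have hsum0 : ∑ b : ZMod p, (ZMod.stdAddChar b : ℂ) = 0 := by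
    refine AddChar.sum_eq_zero_of_ne_one ?_
    have := ZMod.isPrimitive_stdAddChar p (one_ne_zero : (1 : ZMod p) ≠ 0)
    simpa using this
  have hg : ∑ b : ZMod p, ((χ b : ℤ) : ℂ) * ZMod.stdAddChar b = (√(p : ℝ) : ℝ) * eps p := by
    rw [← gs_eps hp, gsd]
    have h1 : ∑ a : ZMod p, (ZMod.stdAddChar (a * a) : ℂ) =
        ∑ b : ZMod p, ∑ a ∈ Finset.univ.filter (fun a => a ^ 2 = b), ZMod.stdAddChar (a * a) :=
      (Finset.sum_fiberwise _ _ _).symm
    rw [h1]
    have h2 : ∀ b : ZMod p, ∑ a ∈ Finset.univ.filter (fun a => a ^ 2 = b), (ZMod.stdAddChar (a * a) : ℂ) =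
        ((χ b : ℤ) + 1 : ℂ) * ZMod.stdAddChar b := fun b => by
      rw [Finset.sum_congr rfl fun a ha => by rw [← pow_two, (Finset.mem_filter.1 ha).2],
        Finset.sum_const, nsmul_eq_mul]
      congr 1
      have := quadraticChar_card_sqrts hp2 b
      rw [← hχ] at this
      have h3 : ((Finset.univ.filter fun a : ZMod p => a ^ 2 = b).card : ℤ) = χ b + 1 := by
        rw [← this]
        congr 2
        ext x
        simp
      exact_mod_cast h3
    simp only [h2, add_mul, one_mul, Finset.sum_add_distrib, hsum0, add_zero]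
  by_cases hk : (k : ZMod p) = 0
  · rw [hk]
    have h0 : ∑ a : ZMod p, χ a = 0 := quadraticChar_sum_zero hp2
    simp only [mul_zero, AddChar.map_zero_eq_one, mul_one, MulChar.map_zero, Int.cast_zero, zero_mul]
    exact_mod_cast h0
  · have h1 : ∀ a : ZMod p, χ a = χ (k : ZMod p) * χ (a * k) := fun a => by
      rw [map_mul, mul_left_comm, ← sq, quadraticChar_sq_one hk, mul_one]
    rw [← hg, Finset.mul_sum]
    rw [← Equiv.sum_comp (Equiv.mulRight₀ (k : ZMod p) hk)
      (fun b => ((χ (k : ZMod p) : ℤ) : ℂ) * (((χ b : ℤ) : ℂ) * ZMod.stdAddChar b))]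
    refine Finset.sum_congr rfl fun a _ => ?_
    rw [h1 a]
    have h2 : (Equiv.mulRight₀ (k : ZMod p) hk) a = a * k := rfl
    rw [h2]
    push_cast
    ring

lemma eps_mul {m n : ℕ} (hm : m % 2 = 1) (hn : n % 2 = 1) (h : m.Coprime n) :
    (((J(n | m) * J(m | n) : ℤ)) : ℂ) * (eps m * eps n) = eps (m * n) := by
  have hs : J(m | n) * J(m | n) = 1 := by
    rw [← sq]
    exact jacobiSym.sq_one (by simpa [Int.gcd_natCast_natCast] using h)
  have hm4 : m % 4 = 1 ∨ m % 4 = 3 := by omega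
  have hn4 : n % 4 = 1 ∨ n % 4 = 3 := by omega
  rcases hn4 with hn4 | hn4
  · rw [jacobiSym.quadratic_reciprocity_one_mod_four hn4 (Nat.odd_iff.2 hm), hs]
    unfold eps
    rcases hm4 with hm4 | hm4
    · rw [if_pos hm4, if_pos hn4, if_pos (by rw [Nat.mul_mod, hm4, hn4])]
      simp
    · rw [if_neg (by omega), if_pos hn4, if_neg (by rw [Nat.mul_mod, hm4, hn4]; norm_num)]
      simp
  · rcases hm4 with hm4 | hm4
    · rw [← jacobiSym.quadratic_reciprocity_one_mod_four hm4 (Nat.odd_iff.2 hn), hs]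
      unfold eps
      rw [if_pos hm4, if_neg (by omega), if_neg (by rw [Nat.mul_mod, hm4, hn4]; norm_num)]
      simp
    · rw [jacobiSym.quadratic_reciprocity_three_mod_four hn4 hm4, neg_mul, hs]
      unfold eps
      rw [if_neg (by omega), if_neg (by omega), if_pos (by rw [Nat.mul_mod, hm4, hn4])]
      simp

lemma FTe_mul {m n : ℕ} [NeZero m] [NeZero n] (h : m.Coprime n) (hm : m % 2 = 1) (hn : n % 2 = 1)
    (Fm : FTe m) (Fn : FTe n) : FTe (m * n) := by
  intro k
  have hm0 : (m : ℂ) ≠ 0 := by exact_mod_cast NeZero.ne m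
  have hn0 : (n : ℂ) ≠ 0 := by exact_mod_cast NeZero.ne n
  have hJ : ∀ x : ZMod n, ∀ y : ZMod m, J(((crt m n (x, y)).val : ℤ) | m * n) =
      (J(n | m) * J(m | n)) * (J((x.val : ℤ) | n) * J((y.val : ℤ) | m)) := fun x y => by
    have h1 : J(((crt m n (x, y)).val : ℤ) | m * n) = J(((m * x.val + n * y.val : ℕ) : ℤ) | m * n) := by
      apply jacobiSym.mod_left'
      unfold crt
      rw [ZMod.val_natCast]
      push_cast
      exact Int.emod_emod_of_dvd _ dvd_rfl
    rw [h1, jacobiSym.mul_right]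
    have h2 : J(((m * x.val + n * y.val : ℕ) : ℤ) | m) = J(n | m) * J((y.val : ℤ) | m) := by
      rw [← jacobiSym.mul_left]
      apply jacobiSym.mod_left'
      push_cast
      simp
    have h3 : J(((m * x.val + n * y.val : ℕ) : ℤ) | n) = J(m | n) * J((x.val : ℤ) | n) := by
      rw [← jacobiSym.mul_left]
      apply jacobiSym.mod_left'
      push_cast
      simp
    rw [h2, h3]
    ring
  have hψ : ∀ x : ZMod n, ∀ y : ZMod m, (ZMod.stdAddChar (crt m n (x, y) * (k : ZMod (m * n))) : ℂ) =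
      ZMod.stdAddChar (x * (k : ZMod n)) * ZMod.stdAddChar (y * (k : ZMod m)) := fun x y => by
    have e1 : crt m n (x, y) * (k : ZMod (m * n)) = (((m * x.val + n * y.val) * k : ℤ) : ZMod (m * n)) := by
      unfold crt
      push_cast
      ring
    have e2 : x * (k : ZMod n) = ((x.val * k : ℤ) : ZMod n) := by simp
    have e3 : y * (k : ZMod m) = ((y.val * k : ℤ) : ZMod m) := by simp
    rw [e1, e2, e3, ZMod.stdAddChar_coe, ZMod.stdAddChar_coe, ZMod.stdAddChar_coe, ← Complex.exp_add]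
    congr 1
    push_cast
    field_simp
  rw [← (crt_bij h).sum_comp, Fintype.sum_prod_type]
  simp only [hJ, hψ]
  have : ∀ x : ZMod n, ∀ y : ZMod m, ((J(n | m) * J(m | n) * (J((x.val : ℤ) | n) * J((y.val : ℤ) | m)) : ℤ) : ℂ) *
      (ZMod.stdAddChar (x * (k : ZMod n)) * ZMod.stdAddChar (y * (k : ZMod m))) =
      ((J(n | m) * J(m | n) : ℤ) : ℂ) * ((((J((x.val : ℤ) | n) : ℤ) : ℂ) * ZMod.stdAddChar (x * (k : ZMod n))) *
      (((J((y.val : ℤ) | m) : ℤ) : ℂ) * ZMod.stdAddChar (y * (k : ZMod m)))) := fun x y => by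
    push_cast
    ring
  simp only [this, ← Finset.mul_sum, ← Finset.sum_mul, Fm k, Fn k]
  rw [jacobiSym.mul_right, Nat.cast_mul, Real.sqrt_mul (Nat.cast_nonneg m), ← eps_mul hm hn h]
  push_cast
  ring

theorem FTe_all : ∀ q : ℕ, Squarefree q → q % 2 = 1 → ∀ _ : NeZero q, FTe q := by
  intro q
  induction q using induction_on_primes with
  | zero => exact fun h => absurd h not_squarefree_zero
  | one => exact fun _ _ _ => FTe_one
  | prime_mul p a hp ih =>
    intro hs h h0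
    have : Fact p.Prime := ⟨hp⟩
    have hp0 : NeZero p := ⟨hp.ne_zero⟩
    have ha0 : NeZero a := ⟨right_ne_zero_of_mul h0.ne⟩
    have hodd : p % 2 = 1 ∧ a % 2 = 1 := by
      have h1 := Nat.odd_mul.1 (Nat.odd_iff.2 h)
      exact ⟨Nat.odd_iff.1 h1.1, Nat.odd_iff.1 h1.2⟩
    exact FTe_mul (Nat.coprime_of_squarefree_mul hs) hodd.1 hodd.2 (FTe_prime p hodd.1)
      (ih (hs.of_mul_right) hodd.2 ha0)

end Vale.Agent.P014.H608
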