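import Vale.Agent.P014.H608.FT
import Vale.Agent.P014.H74.Iface

/-!
# P014 (CN): the value at `s = 1` of the `L`-series of `(m / n)`, `n ≡ 3 mod 4` squarefree
-/

open Real MeasureTheory Set Filter Topology Asymptotics
open Complex (I)
open scoped NumberTheorySymbols

namespace Vale.Agent.P014.H608

/-- the Jacobi symbol as a complex sequence -/
noncomputable def Aj (n m : ℕ) : ℂ := ((J((m : ℤ) | n) : ℤ) : ℂ)

section

variable {n : ℕ} [NeZero n]

/-- the coefficient at `k` -/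
noncomputable def cj (n : ℕ) (k : ZMod n) : ℂ := ((J((k.val : ℤ) | n) : ℤ) : ℂ)

lemma norm_zt (k : ZMod n) : ‖(ZMod.stdAddChar k : ℂ)‖ = 1 := by
  rw [ZMod.stdAddChar_apply]
  exact Circle.norm_coe _

lemma zt_ne_one {k : ZMod n} (hk : k ≠ 0) : (ZMod.stdAddChar k : ℂ) ≠ 1 := by
  intro h
  have h1 : (ZMod.stdAddChar (N := n)) k = ZMod.stdAddChar (0 : ZMod n) := by
    rw [h, AddChar.map_zero_eq_one]
  exact hk (ZMod.injective_stdAddChar h1)

omit [NeZero n] in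
lemma cj_zero (hn : 1 < n) : cj n 0 = 0 := by
  unfold cj
  rw [ZMod.val_zero, Nat.cast_zero, jacobiSym.zero_left hn, Int.cast_zero]

lemma sum_cj (h4 : n % 4 = 3) (hsq : Squarefree n) (m : ℕ) :
    ∑ k : ZMod n, cj n k * (ZMod.stdAddChar k : ℂ) ^ m = Aj n m * ((√(n : ℝ) : ℝ) * I) := by
  have h := FTe_all n hsq (by omega) inferInstance (m : ℤ)
  unfold eps at h
  rw [if_neg (by omega)] at h
  unfold Aj
  rw [← h]
  refine Finset.sum_congr rfl fun k _ => ?_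
  unfold cj
  congr 1
  rw [← AddChar.map_nsmul_eq_pow, nsmul_eq_mul, mul_comm]
  simp

lemma sum_cj_zero (h4 : n % 4 = 3) (hsq : Squarefree n) : ∑ k : ZMod n, cj n k = 0 := by
  have h := sum_cj h4 hsq 0
  simp only [pow_zero, mul_one] at h
  rw [h]
  unfold Aj
  rw [Nat.cast_zero, jacobiSym.zero_left (by omega)]
  simp

/-- the generating function -/
noncomputable def Gj (n : ℕ) [NeZero n] (u : ℝ) : ℂ :=
  ((√(n : ℝ) : ℝ) * I)⁻¹ * ∑ k : ZMod n, cj n k * (ZMod.stdAddChar k / (rexp u - ZMod.stdAddChar k))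

lemma sqrtI_ne : (((√(n : ℝ) : ℝ) : ℂ) * I) ≠ 0 := by
  have : (0 : ℝ) < n := by exact_mod_cast Nat.pos_of_ne_zero (NeZero.ne n)
  refine mul_ne_zero ?_ Complex.I_ne_zero
  exact_mod_cast (Real.sqrt_pos.2 this).ne'

lemma norm_zt_exp (k : ZMod n) {u : ℝ} (hu : 0 < u) :
    ‖(ZMod.stdAddChar k : ℂ) * (rexp (-u) : ℝ)‖ < 1 := by
  rw [norm_mul, norm_zt, one_mul, Complex.norm_real, Real.norm_of_nonneg (Real.exp_pos _).le]
  exact Real.exp_lt_one_iff.2 (by linarith)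

lemma exp_sub_ne {k : ZMod n} (hk : k ≠ 0) (u : ℝ) :
    ((rexp u : ℝ) : ℂ) - ZMod.stdAddChar k ≠ 0 := by
  intro h
  have h1 : ((rexp u : ℝ) : ℂ) = ZMod.stdAddChar k := sub_eq_zero.1 h
  have h2 := congrArg norm h1
  rw [norm_zt, Complex.norm_real, Real.norm_of_nonneg (Real.exp_pos _).le] at h2
  rw [h2] at h1
  exact zt_ne_one hk (by rw [← h1]; simp)

lemma hasSum_Gj (h4 : n % 4 = 3) (hsq : Squarefree n) {u : ℝ} (hu : 0 < u) :
    HasSum (fun m : ℕ => Aj n m * (rexp (-(m : ℝ) * u) : ℝ)) (Gj n u) := by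
  have h1 : ∀ k : ZMod n, HasSum (fun m : ℕ => cj n k * ((ZMod.stdAddChar k : ℂ) * (rexp (-u) : ℝ)) ^ m)
      (cj n k * (1 - (ZMod.stdAddChar k : ℂ) * (rexp (-u) : ℝ))⁻¹) := fun k =>
    (hasSum_geometric_of_norm_lt_one (norm_zt_exp k hu)).mul_left _
  have h2 := (hasSum_sum (fun k (_ : k ∈ Finset.univ) => h1 k)).mul_left
    (((√(n : ℝ) : ℝ) * I : ℂ)⁻¹)
  have e1 : ∀ m : ℕ, ((√(n : ℝ) : ℝ) * I : ℂ)⁻¹ *
      ∑ k : ZMod n, cj n k * ((ZMod.stdAddChar k : ℂ) * (rexp (-u) : ℝ)) ^ m =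
      Aj n m * (rexp (-(m : ℝ) * u) : ℝ) := fun m => by
    have : ∀ k : ZMod n, cj n k * ((ZMod.stdAddChar k : ℂ) * (rexp (-u) : ℝ)) ^ m =
        (cj n k * (ZMod.stdAddChar k : ℂ) ^ m) * (rexp (-(m : ℝ) * u) : ℝ) := fun k => by
      rw [mul_pow, ← mul_assoc, ← Complex.ofReal_pow, ← Real.exp_nat_mul]
      congr 3
      ring
    simp only [this, ← Finset.sum_mul]
    rw [sum_cj h4 hsq m]
    field_simp [sqrtI_ne (n := n)]
    have := Complex.I_sq
    have h3 : (((√(n : ℝ) : ℝ) : ℂ)) ≠ 0 := by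
      have := sqrtI_ne (n := n)
      exact left_ne_zero_of_mul this
    field_simp
  have e2 : ((√(n : ℝ) : ℝ) * I : ℂ)⁻¹ *
      ∑ k : ZMod n, cj n k * (1 - (ZMod.stdAddChar k : ℂ) * (rexp (-u) : ℝ))⁻¹ = Gj n u := by
    unfold Gj
    congr 1
    have : ∀ k : ZMod n, cj n k * (1 - (ZMod.stdAddChar k : ℂ) * (rexp (-u) : ℝ))⁻¹ =
        cj n k + cj n k * (ZMod.stdAddChar k / (rexp u - ZMod.stdAddChar k)) := fun k => by
      have h3 : (1 - (ZMod.stdAddChar k : ℂ) * (rexp (-u) : ℝ)) ≠ 0 := by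
        intro h
        have h4 := norm_zt_exp k hu
        rw [← sub_eq_zero.1 h] at h4
        simp at h4
      have h5 : ((rexp (-u) : ℝ) : ℂ) = ((rexp u : ℝ) : ℂ)⁻¹ := by
        rw [Real.exp_neg]; simp
      have h6 : ((rexp u : ℝ) : ℂ) ≠ 0 := by exact_mod_cast (Real.exp_pos u).ne'
      rw [h5] at h3 ⊢
      have h7 : ((rexp u : ℝ) : ℂ) - ZMod.stdAddChar k ≠ 0 := by
        intro h
        apply h3
        field_simp
        linear_combination h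
      rw [← mul_one_add]
      congr 1
      have h8 : (1 - (ZMod.stdAddChar k : ℂ) * ((rexp u : ℝ) : ℂ)⁻¹) =
          (((rexp u : ℝ) : ℂ) - ZMod.stdAddChar k) / ((rexp u : ℝ) : ℂ) := by
        field_simp
      rw [h8]
      field_simp
      ring
    simp only [this, Finset.sum_add_distrib, sum_cj_zero h4 hsq, zero_add]
  rw [e2] at h2
  rw [show (fun m : ℕ => Aj n m * (rexp (-(m : ℝ) * u) : ℝ)) = fun m : ℕ =>
    ((√(n : ℝ) : ℝ) * I : ℂ)⁻¹ *
      ∑ k : ZMod n, cj n k * ((ZMod.stdAddChar k : ℂ) * (rexp (-u) : ℝ)) ^ m from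
      funext fun m => (e1 m).symm]
  exact h2

end

end Vale.Agent.P014.H608
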