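import Vale.Agent.P014.H608.L1

/-!
# P014 (CN): `∫_0^∞ G(u) du` and the Mellin transform of `G`
-/

open Real MeasureTheory Set Filter Topology Asymptotics
open Complex (I)
open scoped NumberTheorySymbols

namespace Vale.Agent.P014.H608

variable {n : ℕ} [NeZero n]

lemma cont_Gj (hn : 1 < n) : Continuous (Gj n) := by
  unfold Gj
  refine continuous_const.mul (continuous_finsetSum _ fun k _ => ?_)
  by_cases hk : k = 0
  · subst hk
    rw [cj_zero hn]
    simp only [zero_mul]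
    exact continuous_const
  · refine continuous_const.mul (continuous_const.div ?_ fun u => exp_sub_ne hk u)
    exact (Complex.continuous_ofReal.comp Real.continuous_exp).sub continuous_const

lemma Gj_top : (Gj n) =O[atTop] fun t : ℝ => rexp (-1 * t) := by
  unfold Gj
  refine IsBigO.const_mul_left (IsBigO.fun_sum fun k _ => ?_) _
  refine IsBigO.const_mul_left ?_ _
  refine IsBigO.of_bound 2 ?_
  filter_upwards [eventually_ge_atTop (1 : ℝ)] with u hu
  have h2 : 2 ≤ rexp u := by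
    have := Real.add_one_le_exp u
    linarith
  have h3 : rexp u / 2 ≤ ‖((rexp u : ℝ) : ℂ) - ZMod.stdAddChar k‖ := by
    have h4 := norm_sub_norm_le ((rexp u : ℝ) : ℂ) (ZMod.stdAddChar k)
    rw [norm_zt, Complex.norm_real, Real.norm_of_nonneg (Real.exp_pos _).le] at h4
    linarith
  rw [norm_div, norm_zt, Real.norm_of_nonneg (Real.exp_pos _).le, neg_one_mul, Real.exp_neg]
  have h5 : 0 < rexp u / 2 := by positivity
  calc 1 / ‖((rexp u : ℝ) : ℂ) - ZMod.stdAddChar k‖ ≤ 1 / (rexp u / 2) :=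
        one_div_le_one_div_of_le h5 h3
    _ = 2 * (rexp u)⁻¹ := by field_simp

lemma Gj_bot (hn : 1 < n) : (Gj n) =O[𝓝[>] 0] fun t : ℝ => t ^ (-(0 : ℝ)) := by
  have h1 : (Gj n) =O[𝓝[>] 0] fun _ : ℝ => (1 : ℝ) :=
    ((cont_Gj hn).continuousAt.tendsto.mono_left nhdsWithin_le_nhds).isBigO_one ℝ
  refine h1.trans (IsBigO.of_bound 1 ?_)
  filter_upwards with t
  simp

lemma mellin_cont (hn : 1 < n) : ContinuousAt (mellin (Gj n)) 1 :=
  (mellin_differentiableAt_of_isBigO_rpow_exp (a := 1) (b := 0) one_pos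
    ((cont_Gj hn).locallyIntegrable.locallyIntegrableOn _) Gj_top (Gj_bot hn)
    (by simp)).continuousAt

lemma mellin_one : mellin (Gj n) 1 = ∫ u in Ioi (0 : ℝ), Gj n u := by
  unfold mellin
  refine setIntegral_congr_fun measurableSet_Ioi fun u hu => ?_
  simp

lemma integrable_Gj (hn : 1 < n) : IntegrableOn (Gj n) (Ioi 0) := by
  have h := mellinConvergent_of_isBigO_rpow_exp (a := 1) (b := 0) (s := 1) one_pos
    ((cont_Gj hn).locallyIntegrable.locallyIntegrableOn _) Gj_top (Gj_bot hn) (by simp)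
  unfold MellinConvergent at h
  simpa using h

/-- the `L`-series -/
lemma LSeries_mellin (h4 : n % 4 = 3) (hsq : Squarefree n) {s : ℝ} (hs : 1 < s) :
    mellin (Gj n) s = Complex.Gamma s * LSeries (Aj n) s := by
  have hA : ∀ m, ‖Aj n m‖ ≤ 1 := fun m => by
    unfold Aj
    rw [Complex.norm_intCast]
    have := jacobiSym.trichotomy (m : ℤ) n
    rcases this with h | h | h <;> rw [h] <;> simp
  have h0 : Aj n 0 = 0 := by
    unfold Aj
    rw [Nat.cast_zero, jacobiSym.zero_left (by omega), Int.cast_zero]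
  have hsum : Summable fun i : ℕ => ‖Aj n i‖ / (i : ℝ) ^ (s : ℂ).re := by
    rw [Complex.ofReal_re]
    refine Summable.of_nonneg_of_le (fun i => by positivity) (fun i => ?_)
      (Real.summable_one_div_nat_rpow.2 hs)
    exact div_le_div_of_nonneg_right (hA i) (by positivity)
  have h := hasSum_mellin (a := Aj n) (p := fun m : ℕ => (m : ℝ)) (F := Gj n) (s := (s : ℂ))
    (fun i => by
      rcases Nat.eq_zero_or_pos i with rfl | hi
      · exact Or.inl h0
      · exact Or.inr (by exact_mod_cast hi)) (by rw [Complex.ofReal_re]; linarith)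
    (fun t ht => hasSum_Gj h4 hsq ht) hsum
  rw [← h.tsum_eq, LSeries, ← tsum_mul_left]
  refine tsum_congr fun m => ?_
  rcases Nat.eq_zero_or_pos m with rfl | hm
  · simp [h0]
  · rw [LSeries.term_of_ne_zero hm.ne']
    push_cast
    ring

/-- the antiderivative -/
noncomputable def Lj (n : ℕ) [NeZero n] (u : ℝ) : ℂ :=
  ((√(n : ℝ) : ℝ) * I)⁻¹ * ∑ k : ZMod n, cj n k * Complex.log (1 - ZMod.stdAddChar k * (rexp (-u) : ℝ))

lemma one_sub_slit {k : ZMod n} (hk : k ≠ 0) {u : ℝ} (hu : 0 ≤ u) :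
    (1 - (ZMod.stdAddChar k : ℂ) * (rexp (-u) : ℝ)) ∈ Complex.slitPlane := by
  left
  have h1 : (ZMod.stdAddChar k : ℂ).re < 1 := by
    have h2 : (ZMod.stdAddChar k : ℂ).re ≤ 1 := by
      have := Complex.re_le_norm (ZMod.stdAddChar k : ℂ)
      rwa [norm_zt] at this
    refine lt_of_le_of_ne h2 fun h => zt_ne_one hk ?_
    have h3 : Complex.normSq (ZMod.stdAddChar k : ℂ) = 1 := by
      rw [Complex.normSq_eq_norm_sq, norm_zt]; norm_num
    rw [Complex.normSq_apply, h] at h3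
    have h4 : (ZMod.stdAddChar k : ℂ).im = 0 := by nlinarith
    exact Complex.ext (by simpa using h) (by simpa using h4)
  have h5 : rexp (-u) ≤ 1 := Real.exp_le_one_iff.2 (by linarith)
  have h6 : 0 < rexp (-u) := Real.exp_pos _
  rw [Complex.sub_re, Complex.one_re, Complex.re_mul_ofReal]
  rcases le_or_gt (ZMod.stdAddChar k : ℂ).re 0 with h7 | h7
  · nlinarith
  · nlinarith

lemma hasDerivAt_Lj (hn : 1 < n) {u : ℝ} (hu : 0 ≤ u) : HasDerivAt (Lj n) (Gj n u) u := by
  unfold Lj Gj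
  refine HasDerivAt.const_mul _ (HasDerivAt.fun_sum fun k _ => ?_)
  by_cases hk : k = 0
  · subst hk
    rw [cj_zero hn]
    simp only [zero_mul]
    exact hasDerivAt_const _ _
  · refine HasDerivAt.const_mul _ ?_
    have h1 : HasDerivAt (fun u : ℝ => ((rexp (-u) : ℝ) : ℂ)) ((-(rexp (-u)) : ℝ) : ℂ) u := by
      have := ((Real.hasDerivAt_exp (-u)).comp u (hasDerivAt_neg u)).ofReal_comp
      simpa using this
    have h2 := ((h1.const_mul (ZMod.stdAddChar k : ℂ)).const_sub 1).clog_real (one_sub_slit hk hu)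
    refine h2.congr_deriv ?_
    have h5 : ((rexp (-u) : ℝ) : ℂ) = ((rexp u : ℝ) : ℂ)⁻¹ := by
      rw [Real.exp_neg]; simp
    have h6 : ((rexp u : ℝ) : ℂ) ≠ 0 := by exact_mod_cast (Real.exp_pos u).ne'
    have h7 := exp_sub_ne hk u
    push_cast at h5 h6 h7 ⊢
    rw [h5]
    have h8 : (1 - (ZMod.stdAddChar k : ℂ) * (Complex.exp u)⁻¹) =
          (Complex.exp u - ZMod.stdAddChar k) / Complex.exp u := by
        field_simp
    rw [h8]
    field_simp

lemma Lj_tendsto : Tendsto (Lj n) atTop (𝓝 0) := by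
  unfold Lj
  have h : Tendsto (fun u : ℝ => ((√(n : ℝ) : ℝ) * I : ℂ)⁻¹ * ∑ k : ZMod n, cj n k *
      Complex.log (1 - ZMod.stdAddChar k * (rexp (-u) : ℝ))) atTop
      (𝓝 (((√(n : ℝ) : ℝ) * I : ℂ)⁻¹ * ∑ k : ZMod n, cj n k *
      Complex.log (1 - ZMod.stdAddChar k * ((0 : ℝ) : ℂ)))) := by
    refine Tendsto.const_mul _ (tendsto_finsetSum _ fun k _ => Tendsto.const_mul _ ?_)
    have h1 : Tendsto (fun u : ℝ => (1 - ZMod.stdAddChar k * ((rexp (-u) : ℝ) : ℂ) : ℂ)) atTop
        (𝓝 (1 - ZMod.stdAddChar k * ((0 : ℝ) : ℂ))) := by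
      refine Tendsto.const_sub _ (Tendsto.const_mul _ ?_)
      exact (Complex.continuous_ofReal.tendsto 0).comp Real.tendsto_exp_neg_atTop_nhds_zero
    refine Tendsto.clog h1 ?_
    simp
  simpa using h

lemma integral_Gj (hn : 1 < n) : ∫ u in Ioi (0 : ℝ), Gj n u = - Lj n 0 := by
  rw [integral_Ioi_of_hasDerivAt_of_tendsto' (fun u hu => hasDerivAt_Lj hn hu) (integrable_Gj hn)
    Lj_tendsto, zero_sub]

end Vale.Agent.P014.H608
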