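import Vale.Agent.P014.H608.L2

/-!
# P014 (CN): the value `L(1) = -π AH(n) / (n √n)`
-/

open Real MeasureTheory Set Filter Topology Asymptotics
open Complex (I)
open scoped NumberTheorySymbols

namespace Vale.Agent.P014.H608

variable {n : ℕ} [NeZero n]

lemma log_one_sub {φ : ℝ} (h0 : 0 < φ) (h1 : φ < 2 * π) :
    Complex.log (1 - Complex.exp (φ * I)) =
      ((Real.log (2 * Real.sin (φ / 2)) : ℝ) : ℂ) + ((φ / 2 - π / 2 : ℝ) : ℂ) * I := by
  have hs : 0 < 2 * Real.sin (φ / 2) := by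
    have := Real.sin_pos_of_pos_of_lt_pi (half_pos h0) (by linarith)
    linarith
  have key : 1 - Complex.exp (φ * I) =
      Complex.exp (((Real.log (2 * Real.sin (φ / 2)) : ℝ) : ℂ) + ((φ / 2 - π / 2 : ℝ) : ℂ) * I) := by
    rw [Complex.exp_add, ← Complex.ofReal_exp, Real.exp_log hs]
    have h2 := Complex.two_sin ((φ / 2 : ℝ) : ℂ)
    rw [Complex.ofReal_mul, Complex.ofReal_sin, Complex.ofReal_ofNat, h2]
    have h3 : Complex.exp (((φ / 2 - π / 2 : ℝ) : ℂ) * I) =
        Complex.exp (((φ / 2 : ℝ) : ℂ) * I) * (-I) := by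
      rw [← Complex.exp_neg_pi_div_two_mul_I, ← Complex.exp_add]
      congr 1
      push_cast
      ring
    rw [h3]
    have h4 : Complex.exp (φ * I) = Complex.exp (((φ / 2 : ℝ) : ℂ) * I) ^ 2 := by
      rw [← Complex.exp_nat_mul]
      congr 1
      push_cast
      ring
    have h5 : Complex.exp (-((φ / 2 : ℝ) : ℂ) * I) * Complex.exp (((φ / 2 : ℝ) : ℂ) * I) = 1 := by
      rw [← Complex.exp_add]
      simp
    rw [h4]
    have hI := Complex.I_sq
    linear_combination (Complex.exp (((φ / 2 : ℝ) : ℂ) * I) ^ 2 -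
      Complex.exp (-((φ / 2 : ℝ) : ℂ) * I) * Complex.exp (((φ / 2 : ℝ) : ℂ) * I)) * (-1) * hI - h5
  rw [key, Complex.log_exp]
  · simp only [Complex.add_im, Complex.ofReal_im, Complex.mul_im, Complex.ofReal_re, Complex.I_im,
      Complex.I_re]
    linarith [Real.pi_pos]
  · simp only [Complex.add_im, Complex.ofReal_im, Complex.mul_im, Complex.ofReal_re, Complex.I_im,
      Complex.I_re]
    linarith [Real.pi_pos]

lemma sum_val {M : Type*} [AddCommMonoid M] (f : ℕ → M) :
    ∑ k : ZMod n, f k.val = ∑ b ∈ Finset.range n, f b := by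
  refine Finset.sum_nbij' (fun k => k.val) (fun b => (b : ZMod n)) ?_ ?_ ?_ ?_ ?_
  · intro k _
    exact Finset.mem_range.2 (ZMod.val_lt k)
  · intro b _
    exact Finset.mem_univ _
  · intro k _
    exact ZMod.natCast_zmod_val k
  · intro b hb
    exact ZMod.val_cast_of_lt (Finset.mem_range.1 hb)
  · intro k _
    rfl

lemma cj_neg (h4 : n % 4 = 3) (k : ZMod n) : cj n (-k) = - cj n k := by
  unfold cj
  have h1 : J(((-k).val : ℤ) | n) = J(-(k.val : ℤ) | n) := by
    apply jacobiSym.mod_left'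
    have : (((-k).val : ℤ) : ZMod n) = ((-(k.val : ℤ) : ℤ) : ZMod n) := by simp
    exact (ZMod.intCast_eq_intCast_iff' _ _ _).1 this
  rw [h1, jacobiSym.neg _ (Nat.odd_iff.2 (by omega)), ZMod.χ₄_nat_three_mod_four h4]
  push_cast
  ring

lemma sum_even (h4 : n % 4 = 3) (f : ZMod n → ℂ) (hf : ∀ k, k ≠ 0 → f (-k) = f k) :
    ∑ k : ZMod n, cj n k * f k = 0 := by
  have h1 : ∑ k : ZMod n, cj n k * f k = ∑ k : ZMod n, cj n (-k) * f (-k) :=
    (Equiv.sum_comp (Equiv.neg (ZMod n)) (fun k => cj n k * f k)).symm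
  have h2 : ∑ k : ZMod n, cj n (-k) * f (-k) = - ∑ k : ZMod n, cj n k * f k := by
    rw [← Finset.sum_neg_distrib]
    refine Finset.sum_congr rfl fun k _ => ?_
    by_cases hk : k = 0
    · subst hk
      rw [neg_zero, cj_zero (by omega)]
      simp
    · rw [cj_neg h4, hf k hk]
      ring
  have h3 : ∑ k : ZMod n, cj n k * f k = - ∑ k : ZMod n, cj n k * f k := by
    rw [← h2]; exact h1
  have h5 : (2 : ℂ) * ∑ k : ZMod n, cj n k * f k = 0 := by linear_combination h3
  exact (mul_eq_zero.1 h5).resolve_left two_ne_zero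

lemma zt_exp (k : ZMod n) : (ZMod.stdAddChar k : ℂ) =
    Complex.exp (((2 * π * k.val / n : ℝ) : ℂ) * I) := by
  have h := ZMod.stdAddChar_coe (N := n) (k.val : ℤ)
  rw [Int.cast_natCast, ZMod.natCast_zmod_val] at h
  rw [h]
  congr 1
  push_cast
  ring

lemma sum_log (h4 : n % 4 = 3) (hsq : Squarefree n) :
    ∑ k : ZMod n, cj n k * Complex.log (1 - ZMod.stdAddChar k) = (π / n * I) * (AH n : ℂ) := by
  have hn : 1 < n := by omega
  have hn0 : (0 : ℝ) < n := by exact_mod_cast (by omega : 0 < n)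
  have h1 : ∀ k : ZMod n, cj n k * Complex.log (1 - ZMod.stdAddChar k) =
      cj n k * ((Real.log (2 * Real.sin (π * k.val / n)) : ℝ) : ℂ) +
        ((π / n * I) * (cj n k * k.val) - (π / 2 * I) * cj n k) := fun k => by
    by_cases hk : k = 0
    · subst hk
      rw [cj_zero hn]
      simp
    · have hv : 0 < k.val := Nat.pos_of_ne_zero fun h => hk ((ZMod.val_eq_zero k).1 h)
      have hv' : (0 : ℝ) < k.val := by exact_mod_cast hv
      have hl : (k.val : ℝ) < n := by exact_mod_cast ZMod.val_lt k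
      rw [zt_exp, log_one_sub (by positivity) (by
        rw [div_lt_iff₀ hn0]
        have := Real.pi_pos
        nlinarith)]
      have e : 2 * π * (k.val : ℝ) / n / 2 = π * k.val / n := by ring
      rw [e]
      push_cast
      ring
  rw [Finset.sum_congr rfl fun k _ => h1 k, Finset.sum_add_distrib, Finset.sum_sub_distrib,
    ← Finset.mul_sum, ← Finset.mul_sum, sum_cj_zero h4 hsq,
    sum_even h4 (fun k => ((Real.log (2 * Real.sin (π * k.val / n)) : ℝ) : ℂ)) ?_, zero_add,
    mul_zero, sub_zero]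
  · congr 1
    unfold AH cj
    rw [sum_val (fun b => ((J((b : ℤ) | n) : ℤ) : ℂ) * (b : ℂ))]
    push_cast
    refine Finset.sum_congr rfl fun b _ => ?_
    ring
  · intro k hk
    have : NeZero k := ⟨hk⟩
    have h2 : (-k).val = n - k.val := ZMod.val_neg_of_ne_zero k
    have h3 : k.val ≤ n := (ZMod.val_lt k).le
    rw [h2, Nat.cast_sub h3]
    congr 3
    rw [show π * ((n : ℝ) - k.val) / n = π - π * k.val / n by field_simp]
    rw [Real.sin_pi_sub]

theorem mellin_val (h4 : n % 4 = 3) (hsq : Squarefree n) :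
    mellin (Gj n) 1 = ((- (π * AH n / (n * √(n : ℝ))) : ℝ) : ℂ) := by
  have hn : 1 < n := by omega
  have hn0 : (0 : ℝ) < n := by exact_mod_cast (by omega : 0 < n)
  rw [mellin_one, integral_Gj hn]
  unfold Lj
  simp only [neg_zero, Real.exp_zero, Complex.ofReal_one, mul_one]
  rw [sum_log h4 hsq]
  have h1 : ((√(n : ℝ) : ℝ) : ℂ) ≠ 0 := by exact_mod_cast (Real.sqrt_pos.2 hn0).ne'
  have h2 : (n : ℂ) ≠ 0 := by exact_mod_cast hn0.ne'
  push_cast
  field_simp

end Vale.Agent.P014.H608
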