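import Vale.Agent.P014.H608.L3
import Vale.Agent.P014.H581.NumAbs

/-!
# P014 (CN): the residue of the Dedekind zeta function of `ℚ(√-n)` is `L(1)`
-/

open Real MeasureTheory Set Filter Topology Asymptotics NumberField
open Complex (I)
open scoped NumberTheorySymbols
open Vale.Agent.P017.H185 Vale.Agent.P014.H581

namespace Vale.Agent.P014.H608

variable {K : Type*} [Field K] [NumberField K] {n : ℕ} (q : QF K n)

lemma norm_Aj (n m : ℕ) : ‖Aj n m‖ ≤ 1 := by
  unfold Aj
  rw [Complex.norm_intCast]
  have := jacobiSym.trichotomy (m : ℤ) n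
  rcases this with h | h | h <;> rw [h] <;> simp

lemma summable_Aj {s : ℝ} (hs : 1 < s) : LSeriesSummable (Aj n) s :=
  LSeriesSummable_of_bounded_of_one_lt_re (m := 1) (fun m _ => norm_Aj n m) (by simpa using hs)

include q in
theorem zeta_eq (hn : n % 4 = 3) {s : ℝ} (hs : 1 < s) :
    dedekindZeta K s = riemannZeta s * LSeries (Aj n) s := by
  have hs' : 1 < (s : ℂ).re := by simpa using hs
  rw [← LSeries_one_eq_riemannZeta hs', ← LSeries_convolution' (by simpa using LSeriesSummable_one_iff.2 hs') (summable_Aj hs)]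
  unfold dedekindZeta
  refine LSeries_congr (fun {m} hm => ?_) _
  rw [LSeries.convolution_def]
  have h := card_absNorm q hn hm
  have h2 : ((Nat.card {I : Ideal (𝓞 K) // Ideal.absNorm I = m} : ℤ) : ℂ) = ((R 1 n m : ℤ) : ℂ) := by
    rw [h]
  rw [Int.cast_natCast] at h2
  rw [h2]
  unfold R
  push_cast
  refine Finset.sum_congr rfl fun p hp => ?_
  rw [jacobiSym.one_right]
  simp [Aj]

end Vale.Agent.P014.H608
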